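import Vale.Agent.P281.H713.SA.Defs
import Vale.Agent.P281.H167.GM.Defs

/-! P281: the definitions of the final statement, for complex manifolds with charts in `ℂ^n`.  (Each
of them unfolds to the corresponding general definition.) -/

namespace Vale.Agent.P281.S

open scoped Manifold ContDiff Topology
open Filter Vale.Agent.P272.K

noncomputable section

variable {X Y Z F : Type} [TopologicalSpace X] [TopologicalSpace Y] [TopologicalSpace Z]
  [TopologicalSpace F] {n p d : ℕ}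

/-- The atlas of `X` is holomorphic: `X` is a complex manifold of dimension `n`. -/
def IsCplx (n : ℕ) (X : Type) [TopologicalSpace X] [ChartedSpace (Cm n) X] : Prop :=
  IsManifold 𝓘(ℂ, Cm n) ω X

/-- `f : X → Y` is holomorphic. -/
def IsHol (n p : ℕ) [ChartedSpace (Cm n) X] [ChartedSpace (Cm p) Y] (f : X → Y) : Prop :=
  ContMDiff 𝓘(ℂ, Cm n) 𝓘(ℂ, Cm p) ω f

/-- `g` is holomorphic near `x`. -/
def Hol (n : ℕ) [ChartedSpace (Cm n) X] (g : X → ℂ) (x : X) : Prop := J.HolAt (Cm n) g x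

/-- `dg (v)` at the point `x`. -/
def dv (n : ℕ) [ChartedSpace (Cm n) X] (g : X → ℂ) (x : X) (v : Cm n) : ℂ := J.dif (Cm n) g x v

/-- `g` is holomorphic near `x` and `dg ≠ 0` at `x`. -/
def Smo (n : ℕ) [ChartedSpace (Cm n) X] (g : X → ℂ) (x : X) : Prop :=
  J.HolAt (Cm n) g x ∧ J.dif (Cm n) g x ≠ 0

/-- `g` is a local equation of the reduced divisor `D` near `x`. -/
def Eqn (n : ℕ) [ChartedSpace (Cm n) X] (D : Set X) (g : X → ℂ) (x : X) : Prop :=
  J.IsLocalEq (Cm n) D g x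

/-- The Jacobian determinant at `z` of the chart of `X` at `x`. -/
def jac (n : ℕ) [ChartedSpace (Cm n) X] (x z : X) : ℂ :=
  ContinuousLinearMap.det (mfderiv 𝓘(ℂ, Cm n) 𝓘(ℂ, Cm n) (chartAt (Cm n) x) z : Cm n →L[ℂ] Cm n)

/-- The product of the `e D ^ k D` at the point `z`. -/
def mon {ι : Type} (T : Finset ι) (e : ι → X → ℂ) (k : ι → ℕ) (z : X) : ℂ := ∏ D ∈ T, e D z ^ k D

/-- `Δ` is a rational SNC boundary of `X`. -/
def IsSNC (n : ℕ) [ChartedSpace (Cm n) X] (Δ : Set X → ℝ) : Prop := J.IsSNC (Cm n) Δ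

/-- The `S b` are sections of `m K_X + ∑ k(D) D`. -/
def Secs (n : ℕ) [ChartedSpace (Cm n) X] (m : ℕ) (k : Set X → ℕ) {N : ℕ} (S : Fin N → X → ℂ) :
    Prop :=
  ∀ b, J.IsSection (Cm n) (fun (D : Set X) z g => J.IsLocalEq (Cm n) D g z) m k (S b)

/-- `κ(X, K_X + Δ)` -/
def kod (n : ℕ) [ChartedSpace (Cm n) X] (Δ : Set X → ℝ) : WithBot ℕ∞ :=
  J.kod (Cm n) (fun (D : Set X) x g => J.IsLocalEq (Cm n) D g x) Δ

/-- `κ(F, K_F + ι^* Δ)` for `ι : F → X` -/
def kodR (n d : ℕ) [ChartedSpace (Cm n) X] [ChartedSpace (Cm d) F] (ι : F → X) (Δ : Set X → ℝ) :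
    WithBot ℕ∞ :=
  J.kod (Cm d) (fun (D : Set X) t g => ∃ e, J.IsLocalEq (Cm n) D e (ι t) ∧
    ∀ᶠ t' in 𝓝 t, g t' = e (ι t')) Δ

/-- `j : Z → X` identifies `Z` with an open subset of `X` whose complement has codimension at least
`2`. -/
def BigOpen (n : ℕ) [ChartedSpace (Cm n) X] [ChartedSpace (Cm n) Z] (j : Z → X) : Prop :=
  J.IsBigOpen (Cm n) j

/-- `B(f, Δ)` (the multiplicities are computed with the prime divisors `D`, `closure (f D) = G`). -/
def base (n p : ℕ) [ChartedSpace (Cm n) X] [ChartedSpace (Cm p) Y] (f : X → Y) (Δ : Set X → ℝ) :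
    Set Y → ℝ :=
  J.orbBase' (Cm n) (Cm p) f Δ

/-- `𝒢` is a finite set of prime divisors of `Y` and the preimage of their union is a finite union
of prime divisors, each of which dominates one of the divisors of `𝒢`. -/
def Divisorial (n p : ℕ) [ChartedSpace (Cm n) X] [ChartedSpace (Cm p) Y] (f : X → Y)
    (𝒢 : Set (Set Y)) : Prop :=
  J.IsDivisorial (Cm n) (Cm p) f 𝒢

/-- The holomorphic immersion `i` maps `F` to a fibre of `f : X → Y`, and `f` is submersive along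
`i(F)` (for instance, `F` is a smooth fibre of `f`). -/
def SmoothFibre (n p d : ℕ) [ChartedSpace (Cm n) X] [ChartedSpace (Cm p) Y]
    [ChartedSpace (Cm d) F] (f : X → Y) (i : F → X) : Prop :=
  H713.IsSmoothFibre (Cm n) (Cm p) (Cm d) f i

/-- The tangent vector `w` at `z` is in the kernel of the differential of the map to projective space
with homogeneous coordinates `H b`. -/
def PKer (n : ℕ) [ChartedSpace (Cm n) X] {N : ℕ} (H : Fin N → X → ℂ) (z : X) (w : Cm n) : Prop :=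
  ∀ b b', H b z * dv n (H b') z w = H b' z * dv n (H b) z w

/-- The tangent vector `w` at `z` is in the kernel of the form `β`. -/
def FKer (n : ℕ) [ChartedSpace (Cm n) X] (β : Chart n X → Cm n → Matrix (Fin n) (Fin n) ℂ) (z : X)
    (w : Cm n) : Prop :=
  ∀ j, ∑ i, w i * β (chartAt (Cm n) z) (chartAt (Cm n) z z) i j = 0

/-- At the point `z` of the smooth hypersurface `g = 0`: either some tangent vector `w ≠ 0` of
`g = 0` is in the kernels of `β` and of the differential of the map `[H]` (`g = 0` is contracted), or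
the restriction of the map `[H]` to `g = 0` has rank less than `ν`. -/
def DegAt (n ν : ℕ) [ChartedSpace (Cm n) X] {N : ℕ} (H : Fin N → X → ℂ) (g : X → ℂ)
    (β : Chart n X → Cm n → Matrix (Fin n) (Fin n) ℂ) (z : X) : Prop :=
  (∃ w : Cm n, w ≠ 0 ∧ dv n g z w = 0 ∧ PKer n H z w ∧ FKer n β z w) ∨
  ∃ K : Submodule ℂ (Cm n), n ≤ ν + Module.finrank ℂ K ∧ ∀ w ∈ K, dv n g z w = 0 ∧ PKer n H z w

/-- The map `F → ℙ` with homogeneous coordinates `S b ∘ ι` has rank at least `ν` at some point, not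
on the divisors `D` with `k D ≠ 0`. -/
def HasRank (d ν : ℕ) [ChartedSpace (Cm d) F] (k : Set X → ℕ) (ι : F → X) {N : ℕ}
    (S : Fin N → X → ℂ) : Prop :=
  ∃ (x : F) (b₀ : Fin N) (c : Fin ν → Fin N), (∀ D, k D ≠ 0 → ι x ∉ D) ∧ S b₀ (ι x) ≠ 0 ∧
    Function.Surjective fun (ξ : Cm d) (b : Fin ν) =>
      dv d (fun z => S (c b) (ι z) / S b₀ (ι z)) x ξ

/-- The products `S b * S' c`. -/
def prodF {N N' : ℕ} (S : Fin N → X → ℂ) (S' : Fin N' → X → ℂ) (a : Fin (N * N')) (z : X) : ℂ :=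
  S (finProdFinEquiv.symm a).1 z * S' (finProdFinEquiv.symm a).2 z

/-- `S b ∘ ι` are (in the frame of `m K_X + ∑ k(D) D` given by the chart of `X` at `x` and the local
equations `e D`) the functions `(∏ g_i ^ a_i) H_b` at the point `z`; `x' = ι z`. -/
def Fr (n : ℕ) [ChartedSpace (Cm n) X] (m : ℕ) (k : Set X → ℕ) (T : Finset (Set X))
    (e : Set X → X → ℂ) {N r : ℕ} (S : Fin N → X → ℂ) (g : Fin r → F → ℂ) (a : Fin r → ℕ)
    (H : Fin N → F → ℂ) (x x' : X) (z : F) : Prop :=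
  mon T e k x' ≠ 0 → ∀ b, S b x' * mon T e k x' = mon Finset.univ g a z * H b z * jac n x x' ^ m

/-- `S b` are sections of `m K_X + ∑ k(D) D` and `S' b` of `m' K_X + ∑ k'(D) D`, `ι : F → X` is
holomorphic (the identity of `X`, or a fibre).  Near every point of `F`, `S b ∘ ι` and `S' b ∘ ι` are
`(∏ g_i ^ a_i) H_b` and `(∏ g_i ^ a'_i) H'_b` in frames of these line bundles (`e D` are local
equations of the divisors `D`), where the `H_b` (and the `H'_b`) have no common zero and the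
hypersurfaces `g_i = 0` of `F` are smooth: the fixed divisors of the `S b ∘ ι` and of the `S' b ∘ ι`
are locally `∑ a_i {g_i = 0}` and `∑ a'_i {g_i = 0}`, the moving parts are generated by the `H_b` and
`H'_b`.  Moreover each hypersurface `g_i = 0` is contracted by `([H_b H'_c], β)`, or the map
`[H_b H'_c]` has rank less than `ν` on it; `β ≥ 0` is a closed form, `β > 0` on a dense set, and the
map `[S_b S'_c] ∘ ι` has rank at least `ν` at some point. -/
def HasGoodFix (n d m m' : ℕ) [ChartedSpace (Cm n) X] [ChartedSpace (Cm d) F] (k k' : Set X → ℕ)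
    (ι : F → X) {N N' : ℕ} (S : Fin N → X → ℂ) (S' : Fin N' → X → ℂ) : Prop :=
  ∃ (ν : ℕ) (β : Chart d F → Cm d → Matrix (Fin d) (Fin d) ℂ), H167.IsSemiKahler β ∧
    HasRank d ν (k + k') ι (prodF S S') ∧
    ∀ x : F, ∃ (T : Finset (Set X)) (e : Set X → X → ℂ) (r : ℕ) (g : Fin r → F → ℂ)
      (a a' : Fin r → ℕ) (H : Fin N → F → ℂ) (H' : Fin N' → F → ℂ),
      (∀ D, k D ≠ 0 ∨ k' D ≠ 0 → D ∈ T) ∧ (∀ D ∈ T, Eqn n D (e D) (ι x)) ∧
      (∀ i, Smo d (g i) x) ∧ (∀ b, Hol d (H b) x) ∧ (∀ b, Hol d (H' b) x) ∧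
      (∃ b, H b x ≠ 0) ∧ (∃ b, H' b x ≠ 0) ∧
      ∀ᶠ z in 𝓝 x, Fr n m k T e S g a H (ι x) (ι z) z ∧
        Fr n m' k' T e S' g a' H' (ι x) (ι z) z ∧
        ∀ i, g i z = 0 → DegAt d ν (prodF H H') (g i) β z

end

end Vale.Agent.P281.S
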