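import Vale.Agent.P281.H716.KL.Fin
import Vale.Agent.P281.H716.S.Defs

/-! P281: the short form of the hypotheses. -/

namespace Vale.Agent.P281.S

open scoped Manifold ContDiff Topology
open Filter Vale.Agent.P272.K Vale.Agent.P281.H716

variable {X F : Type} [TopologicalSpace X] [TopologicalSpace F]

theorem prodF_eq {N N' : ℕ} (S : Fin N → X → ℂ) (S' : Fin N' → X → ℂ) :
    prodF S S' = KL.prodF S S' := rfl

theorem good2_of {n m m' : ℕ} [ChartedSpace (Cm n) X] {k k' : Set X → ℕ} {N N' : ℕ}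
    {S : Fin N → X → ℂ} {S' : Fin N' → X → ℂ} (h : HasGoodFix n n m m' k k' id S S') :
    ∃ (ν : ℕ) (β : Chart n X → Cm n → Matrix (Fin n) (Fin n) ℂ), H167.IsSemiKahler β ∧
      H167.HasRankP n ν (k + k') id (KL.prodF S S') ∧ KL.IsGoodFix2 m m' ν k k' S S' β := h

theorem goodP_of {n d m m' : ℕ} [ChartedSpace (Cm n) X] [ChartedSpace (Cm d) F]
    {k k' : Set X → ℕ} {ι : F → X} {N N' : ℕ}
    {S : Fin N → X → ℂ} {S' : Fin N' → X → ℂ} (h : HasGoodFix n d m m' k k' ι S S') :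
    ∃ (ν : ℕ) (β : Chart d F → Cm d → Matrix (Fin d) (Fin d) ℂ), H167.IsSemiKahler β ∧
      H167.HasRankP d ν (k + k') ι (KL.prodF S S') ∧
      H167.IsGoodFixP n d (m + m') ν (k + k') ι (KL.prodF S S') β := by
  obtain ⟨ν, β, hβ, hν, h⟩ := h
  refine ⟨ν, β, hβ, hν, fun x => ?_⟩
  obtain ⟨T, e, r, g, a, a', H, H', hk, he, hg, hH, hH', ⟨b, hb⟩, ⟨b', hb'⟩, hev⟩ := h x
  refine ⟨T, e, r, g, fun i => a i + a' i, KL.prodF H H', fun D hD => ?_, he, hg, fun c => ?_,
    ⟨finProdFinEquiv (b, b'), ?_⟩, ?_⟩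
  · refine hk D ?_
    rw [Pi.add_apply] at hD
    by_contra hcon
    push Not at hcon
    exact hD (by rw [hcon.1, hcon.2])
  · exact (hH (finProdFinEquiv.symm c).1).smul (hH' (finProdFinEquiv.symm c).2)
  · simp only [KL.prodF, Equiv.symm_apply_apply]
    exact mul_ne_zero hb hb'
  · filter_upwards [hev] with z hz
    obtain ⟨hz, hz', hz''⟩ := hz
    refine ⟨fun hne c => ?_, hz''⟩
    have e1 : ∏ D ∈ T, e D (ι z) ^ (k + k') D =
        (∏ D ∈ T, e D (ι z) ^ k D) * ∏ D ∈ T, e D (ι z) ^ k' D := by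
      rw [← Finset.prod_mul_distrib]
      exact Finset.prod_congr rfl fun D _ => by rw [Pi.add_apply, pow_add]
    rw [e1] at hne ⊢
    have h1 := hz (left_ne_zero_of_mul hne) (finProdFinEquiv.symm c).1
    have h2 := hz' (right_ne_zero_of_mul hne) (finProdFinEquiv.symm c).2
    simp only [mon, jac] at h1 h2
    have e2 : ∏ i, g i z ^ (a i + a' i) = (∏ i, g i z ^ a i) * ∏ i, g i z ^ a' i := by
      rw [← Finset.prod_mul_distrib]
      exact Finset.prod_congr rfl fun i _ => by rw [pow_add]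
    rw [e2, pow_add]
    simp only [KL.prodF]
    calc _ = (S (finProdFinEquiv.symm c).1 (ι z) * ∏ D ∈ T, e D (ι z) ^ k D) *
        (S' (finProdFinEquiv.symm c).2 (ι z) * ∏ D ∈ T, e D (ι z) ^ k' D) := by ring
      _ = _ := by rw [h1, h2]; ring

end Vale.Agent.P281.S
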